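import Vale.Agent.P277.H60.L.Dolb
import Vale.Agent.P184Z.Par
import Vale.Agent.P272.K.C2.Wirt
import Vale.Agent.P272.K.INT.Wirt

/-!
# P284Y, block O: local potentials of closed real forms of type `(1,1)`
-/

open scoped ContDiff Topology ComplexConjugate
open Filter Set Metric

noncomputable section

namespace Vale.Agent.P284Y.O2

open Vale.Agent.P272.K Vale.Agent.P272.K.C2 Vale.Agent.P184Z

variable {n : ℕ}

theorem DD_int {F : Cm n × ℝ → ℂ} (hF : ContDiff ℝ ∞ F) (a b : ℂ) (v w z : Cm n) :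
    Continuous (fun t => DD a b v w (fun y => F (y, t)) z) ∧
    DD a b v w (fun y => ∫ t in (0 : ℝ)..1, F (y, t)) z =
      ∫ t in (0 : ℝ)..1, DD a b v w (fun y => F (y, t)) z := by
  have h1 := ((Par.Sm.D hF (v, 0)).ii z 0 1).const_mul a
  have h2 := ((Par.Sm.D hF (w, 0)).ii z 0 1).const_mul b
  have e : (fun t => DD a b v w (fun y => F (y, t)) z) =
      fun t => a * Par.D (v, 0) F (z, t) + b * Par.D (w, 0) F (z, t) := by
    ext t
    rw [← Par.D_slice hF, ← Par.D_slice hF]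
    rfl
  rw [e, intervalIntegral.integral_add h1 h2, intervalIntegral.integral_const_mul,
    intervalIntegral.integral_const_mul, ← Par.D_int hF, ← Par.D_int hF]
  exact ⟨(continuous_const.mul ((Par.Sm.D hF (v, 0)).cont_time z)).add
    (continuous_const.mul ((Par.Sm.D hF (w, 0)).cont_time z)), rfl⟩

theorem DD_scale {f : Cm n → ℂ} (hf : ContDiff ℝ ∞ f) (c : Cm n) (t : ℝ) (a b : ℂ) (v w z : Cm n) :
    DD a b v w (fun y => f (c + t • (y - c))) z = t * DD a b v w f (c + t • (z - c)) := by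
  have h : HasFDerivAt (fun y : Cm n => c + t • (y - c)) (t • ContinuousLinearMap.id ℝ (Cm n)) z :=
    (((hasFDerivAt_id z).sub_const c).const_smul t).const_add c
  have h1 := ((Par.Sm.hasF hf _).comp z h).fderiv
  simp only [DD]
  rw [show (fun y => f (c + t • (y - c))) = f ∘ fun y => c + t • (y - c) from rfl, h1]
  simp [mul_add, mul_left_comm]

theorem DD_coord (c : Cm n) (j : Fin n) (a b : ℂ) (v w z : Cm n) :
    DD a b v w (fun y => y j - c j) z = a * v j + b * w j := by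
  have h : HasFDerivAt (fun y : Cm n => y j - c j)
      (ContinuousLinearMap.proj (R := ℝ) (φ := fun _ => ℂ) j) z :=
    (ContinuousLinearMap.proj (R := ℝ) (φ := fun _ => ℂ) j).hasFDerivAt.sub_const _
  simp [DD, h.fderiv]

/-- the integrand of the homotopy formula -/
def hF (W : Fin n → Cm n → ℂ) (c : Cm n) (q : Cm n × ℝ) : ℂ :=
  ∑ j, q.2 * ((q.1 j - c j) * W j (c + q.2 • (q.1 - c)))

theorem hF_sm {W : Fin n → Cm n → ℂ} (hW : ∀ j, ContDiff ℝ ∞ (W j)) (c : Cm n) :
    ContDiff ℝ ∞ (hF W c) :=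
  ContDiff.sum fun j _ => (Complex.ofRealCLM.contDiff.comp contDiff_snd).mul
    (ContDiff.mul (by fun_prop) ((hW j).comp (by fun_prop)))

theorem DD_hF {W : Fin n → Cm n → ℂ} (hW : ∀ j, ContDiff ℝ ∞ (W j)) (c : Cm n) (t : ℝ) (a b : ℂ)
    (v w z : Cm n) : DD a b v w (fun y => hF W c (y, t)) z =
      ∑ j, t * ((a * v j + b * w j) * W j (c + t • (z - c)) +
        (z j - c j) * (t * DD a b v w (W j) (c + t • (z - c)))) := by
  have h1 : ∀ j, DifferentiableAt ℝ (fun y : Cm n => y j - c j) z := fun j => by fun_prop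
  have h2 : ∀ j, DifferentiableAt ℝ (fun y => W j (c + t • (y - c))) z := fun j =>
    (Par.Sm.diff (hW j) _).comp z (by fun_prop)
  simp only [hF]
  rw [DD_sum _ _ _ _ _ fun j _ => ((h1 j).fun_mul (h2 j)).const_mul _]
  refine Finset.sum_congr rfl fun j _ => ?_
  rw [DD_const_mul _ _ _ _ _ ((h1 j).fun_mul (h2 j)), DD_mul _ _ _ _ (h1 j) (h2 j), DD_coord,
    DD_scale (hW j)]

theorem dz_hF {W : Fin n → Cm n → ℂ} (hW : ∀ j, ContDiff ℝ ∞ (W j)) (c : Cm n) (t : ℝ) (i : Fin n)
    (z : Cm n) : dz i (fun y => hF W c (y, t)) z = t * W i (c + t • (z - c)) +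
      t ^ 2 * ∑ j, (z j - c j) * dz i (W j) (c + t • (z - c)) := by
  simp only [dz_eq_DD, DD_hF hW, mul_add, Finset.sum_add_distrib, Finset.mul_sum]
  congr 1
  · rw [Finset.sum_eq_single i (fun j _ h => by simp [h]) (by simp)]
    simp only [Pi.single_eq_same]
    linear_combination (-(t : ℂ) * W i (c + t • (z - c)) / 2) * Complex.I_mul_I
  · exact Finset.sum_congr rfl fun j _ => by ring

theorem dzb_hF {W : Fin n → Cm n → ℂ} (hW : ∀ j, ContDiff ℝ ∞ (W j)) (c : Cm n) (t : ℝ) (i : Fin n)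
    (z : Cm n) : dzb i (fun y => hF W c (y, t)) z =
      t ^ 2 * ∑ j, (z j - c j) * dzb i (W j) (c + t • (z - c)) := by
  simp only [dzb_eq_DD, DD_hF hW, mul_add, Finset.sum_add_distrib, Finset.mul_sum]
  rw [Finset.sum_eq_single i (fun j _ h => by simp [h]) (by simp)]
  simp only [Pi.single_eq_same]
  rw [show ∀ x y : ℂ, y = 0 → y + x = x from fun x y h => by rw [h, zero_add]]
  · exact Finset.sum_congr rfl fun j _ => by ring
  · linear_combination ((t : ℂ) * W i (c + t • (z - c)) / 2) * Complex.I_mul_I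

/-- the potential, for coefficients which are smooth everywhere -/
theorem pot_glob {W : Fin n → Fin n → Cm n → ℂ} (hW : ∀ j k, ContDiff ℝ ∞ (W j k)) {c : Cm n}
    {r R : ℝ} (hr : 0 < r) (hrR : r < R) (hh : ∀ z ∈ ball c R, ∀ j k, W k j z = conj (W j k z))
    (hc : ∀ z ∈ ball c R, ∀ i j k, dz k (W i j) z = dz i (W k j) z) :
    ∃ ρ : Cm n → ℝ, ContDiff ℝ ∞ ρ ∧ ∀ z ∈ ball c r, ∀ j k, cHess ρ z j k = W j k z := by
  have hm : ∀ z ∈ ball c R, ∀ t ∈ uIcc (0 : ℝ) 1, c + t • (z - c) ∈ ball c R := fun z hz t ht =>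
    (convex_ball c R).add_smul_sub_mem (mem_ball_self (hr.trans hrR)) hz (by simpa using ht)
  have hb : ∀ z ∈ ball c R, ∀ i j k, dzb i (W j k) z = conj (dz i (W k j) z) := fun z hz i j k => by
    rw [← dzb_conj i (Par.Sm.diff (hW k j) z)]
    exact dzb_congr i ((isOpen_ball.eventually_mem hz).mono fun y hy => hh y hy k j)
  have sF : ∀ k, ContDiff ℝ ∞ (hF (fun j => W j k) c) := fun k => hF_sm (fun j => hW j k) c
  obtain ⟨u, hu, hu'⟩ := P277.H60.L.dolbeault c hr hrR
    (fun k y => ∫ t in (0 : ℝ)..1, hF (fun j => W j k) c (y, t))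
    (fun k z _ => (Par.Sm.int (sF k) 0 1).contDiffAt) fun i k z hz => by
      rw [dzb_eq_DD, dzb_eq_DD, (DD_int (sF k) ..).2, (DD_int (sF i) ..).2]
      refine intervalIntegral.integral_congr fun t ht => ?_
      simp only [← dzb_eq_DD, dzb_hF fun j => hW j _, hb _ (hm z hz t ht), hc _ (hm z hz t ht) k]
  have u2 : ∀ z, ContDiffAt ℝ 2 u z := fun z => hu.contDiffAt.of_le (by norm_cast)
  refine ⟨fun z => 2 * (u z).re, contDiff_const.mul (Complex.reCLM.contDiff.comp hu),
    fun z hz j k => ?_⟩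
  have hz' := ball_subset_ball hrR.le hz
  have e1 : (dzb k fun y => ((2 * (u y).re : ℝ) : ℂ)) = fun y => dzb k u y + conj (dz k u y) := by
    ext y
    rw [← dzb_conj k (Par.Sm.diff hu y), ← dzb_add k (Par.Sm.diff hu y)
      (differentiableAt_conj (Par.Sm.diff hu y))]
    simp only [Complex.add_conj]
  have e2 : ∀ i, dzb i u =ᶠ[𝓝 z] fun y => ∫ t in (0 : ℝ)..1, hF (fun j => W j i) c (y, t) :=
    fun i => (isOpen_ball.eventually_mem hz).mono (hu' i)
  rw [C2.cHess_apply, e1, dz_add j (differentiableAt_dzb k (u2 z))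
    (differentiableAt_conj (differentiableAt_dz k (u2 z))), dz_conj j (differentiableAt_dz k (u2 z)),
    ← dz_dzb_comm k j (u2 z), dz_congr j (e2 k), dz_congr k (e2 j), dz_eq_DD, dz_eq_DD,
    (DD_int (sF k) ..).2, (DD_int (sF j) ..).2, ← intervalIntegral.intervalIntegral_conj,
    ← intervalIntegral.integral_add ((DD_int (sF k) ..).1.intervalIntegrable 0 1)
      ((Complex.continuous_conj.comp' (DD_int (sF j) ..).1).intervalIntegrable 0 1)]
  have sG : ContDiff ℝ ∞ fun t : ℝ => (t : ℂ) ^ 2 * W j k (c + t • (z - c)) :=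
    (Complex.ofRealCLM.contDiff.pow 2).mul ((hW j k).comp (by fun_prop))
  have h3 := intervalIntegral.integral_deriv_eq_sub (a := 0) (b := 1)
    (fun t _ => Par.Sm.diff sG t) ((sG.continuous_deriv (by simp)).intervalIntegrable 0 1)
  refine (intervalIntegral.integral_congr fun t ht => ?_).trans (h3.trans (by simp))
  have h4 := ((Complex.ofRealCLM.hasDerivAt (x := t)).fun_pow 2).fun_mul
    (Par.hasDerivAt_line (hW j k) c (z - c) t)
  refine Eq.trans ?_ h4.deriv.symm
  simp only [← dz_eq_DD, dz_hF fun j => hW j _, Par.D_def, INT.fderiv_apply,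
    hb _ (hm z hz' t ht), hc _ (hm z hz' t ht) _ _ k, hc _ (hm z hz' t ht) _ _ j,
    ← hh _ (hm z hz' t ht) k j, map_add, map_mul,
    map_sum, map_pow, Complex.conj_ofReal, Finset.sum_add_distrib, Complex.ofRealCLM_apply,
    Pi.sub_apply]
  push_cast
  ring

/-- **local potentials** -/
theorem pot_loc {W : Cm n → Matrix (Fin n) (Fin n) ℂ} {c : Cm n}
    (h : ∀ᶠ z in 𝓝 c, (∀ j k, ContDiffAt ℝ ∞ (fun y => W y j k) z) ∧ (W z).IsHermitian ∧
      ∀ i j k, dz k (fun y => W y i j) z = dz i (fun y => W y k j) z) :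
    ∃ ρ : Cm n → ℝ, ContDiff ℝ ∞ ρ ∧ ∀ᶠ z in 𝓝 c, cHess ρ z = W z := by
  obtain ⟨R, hR, hb⟩ := nhds_basis_closedBall.eventually_iff.1 h
  let χ : ContDiffBump c := ⟨R / 2, R, half_pos hR, half_lt_self hR⟩
  have e : ∀ z ∈ ball c (R / 2), ∀ j k, (fun y => (χ y : ℂ) * W y j k) =ᶠ[𝓝 z] fun y => W y j k :=
    fun z hz j k => (isOpen_ball.eventually_mem hz).mono fun y hy => by
      simp only [χ.one_of_mem_closedBall (ball_subset_closedBall hy), Complex.ofReal_one, one_mul]
  have hs : ∀ z ∈ ball c (R / 2), z ∈ closedBall c R := fun z hz =>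
    ball_subset_closedBall (ball_subset_ball (half_le_self hR.le) hz)
  obtain ⟨ρ, h1, h2⟩ := pot_glob (W := fun j k y => (χ y : ℂ) * W y j k) (c := c) (r := R / 4)
    (R := R / 2) (fun j k => contDiff_iff_contDiffAt.2 fun z => by
      by_cases hz : z ∈ closedBall c R
      · exact (contDiffAt_ofReal χ.contDiff.contDiffAt).mul ((hb hz).1 j k)
      · refine (contDiffAt_const (c := (0 : ℂ))).congr_of_eventuallyEq ?_
        filter_upwards [isClosed_closedBall.isOpen_compl.mem_nhds hz] with y hy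
        rw [χ.zero_of_le_dist (not_le.1 (show ¬ dist y c ≤ R from hy)).le, Complex.ofReal_zero, zero_mul])
    (by positivity) (by linarith)
    (fun z hz j k => by rw [map_mul, Complex.conj_ofReal, ← (hb (hs z hz)).2.1.apply k j]; rfl)
    fun z hz i j k => by rw [dz_congr k (e z hz i j), dz_congr i (e z hz k j), (hb (hs z hz)).2.2]
  refine ⟨ρ, h1, ?_⟩
  filter_upwards [ball_mem_nhds c (show 0 < R / 4 by positivity)] with z hz
  ext j k
  rw [h2 z hz, (e z (ball_subset_ball (by linarith) hz) j k).eq_of_nhds]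

end Vale.Agent.P284Y.O2
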