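import Vale.Agent.P277.H60.L.Dolb
import Vale.Agent.P284Y.Lib.Par
import Mathlib.MeasureTheory.Integral.CurveIntegral.Poincare

/-!
# P284Y, block O: local potentials of Kähler forms
-/

open scoped ContDiff Topology
open Filter Set Metric MeasureTheory

noncomputable section

namespace Vale.Agent.P284Y.O

open Vale.Agent.P272.K Vale.Agent.P277.H60.L Vale.Agent.P284Y.Lib

variable {n : ℕ}

/-- the measure on the unit interval -/
abbrev ν₁ : Measure ℝ := volume.restrict (Icc (0 : ℝ) 1)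

theorem ν₁_c : ν₁ (Icc (0 : ℝ) 1)ᶜ = 0 := by
  rw [Measure.restrict_apply measurableSet_Icc.compl, compl_inter_self, measure_empty]

theorem int_ν₁ {g : ℝ → ℂ} (hg : Continuous g) : Integrable g ν₁ :=
  integrable_param ν₁ isCompact_Icc ν₁_c hg

section
variable {F : ℝ → Cm n → ℂ} (hF : ContDiff ℝ ∞ (Function.uncurry F))
include hF

theorem fd_cont (z v : Cm n) : Continuous fun t => fderiv ℝ (F t) z v :=
  ((contDiff_fderiv_snd hF).continuous.comp (continuous_id.prodMk continuous_const)).clm_apply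
    continuous_const

theorem fd_int (z v : Cm n) :
    fderiv ℝ (fun z => ∫ t, F t z ∂ν₁) z v = ∫ t, fderiv ℝ (F t) z v ∂ν₁ := by
  have h : Continuous fun t => fderiv ℝ (F t) z :=
    (contDiff_fderiv_snd hF).continuous.comp (continuous_id.prodMk continuous_const)
  rw [(hasFDerivAt_integral_param ν₁ isCompact_Icc ν₁_c hF z).fderiv,
    ContinuousLinearMap.integral_apply (integrable_param ν₁ isCompact_Icc ν₁_c h)]

theorem dz_int (k : Fin n) (z : Cm n) :
    dz k (fun z => ∫ t, F t z ∂ν₁) z = ∫ t, dz k (F t) z ∂ν₁ := by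
  unfold dz
  rw [fd_int hF, fd_int hF, integral_div, integral_sub (int_ν₁ (fd_cont hF _ _))
    ((int_ν₁ (fd_cont hF _ _)).const_mul _), integral_const_mul]

theorem dzb_int (k : Fin n) (z : Cm n) :
    dzb k (fun z => ∫ t, F t z ∂ν₁) z = ∫ t, dzb k (F t) z ∂ν₁ := by
  unfold dzb
  rw [fd_int hF, fd_int hF, integral_div, integral_add (int_ν₁ (fd_cont hF _ _))
    ((int_ν₁ (fd_cont hF _ _)).const_mul _), integral_const_mul]

theorem dz_cont (k : Fin n) (z : Cm n) : Continuous fun t => dz k (F t) z :=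
  ((fd_cont hF _ _).sub (continuous_const.mul (fd_cont hF _ _))).div_const _

end

theorem fd_aff {W : Cm n → ℂ} (hW : ContDiff ℝ ∞ W) (c : Cm n) (t : ℝ) (z v : Cm n) :
    fderiv ℝ (fun z => W (c + t • (z - c))) z v = t * fderiv ℝ W (c + t • (z - c)) v := by
  have h1 : HasFDerivAt (fun z : Cm n => c + t • (z - c)) (t • ContinuousLinearMap.id ℝ (Cm n)) z :=
    (((hasFDerivAt_id z).sub_const c).const_smul t).const_add c
  have h2 := ((hW.differentiable (by simp) _).hasFDerivAt.comp z h1).fderiv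
  rw [show (fun z => W (c + t • (z - c))) = W ∘ fun z : Cm n => c + t • (z - c) from rfl, h2]
  simp

theorem dz_aff {W : Cm n → ℂ} (hW : ContDiff ℝ ∞ W) (c : Cm n) (t : ℝ) (k : Fin n) (z : Cm n) :
    dz k (fun z => W (c + t • (z - c))) z = t * dz k W (c + t • (z - c)) := by
  unfold dz
  rw [fd_aff hW, fd_aff hW]
  ring

theorem dzb_aff {W : Cm n → ℂ} (hW : ContDiff ℝ ∞ W) (c : Cm n) (t : ℝ) (k : Fin n) (z : Cm n) :
    dzb k (fun z => W (c + t • (z - c))) z = t * dzb k W (c + t • (z - c)) := by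
  unfold dzb
  rw [fd_aff hW, fd_aff hW]
  ring

theorem diff_co (c : Cm n) (i : Fin n) (z : Cm n) :
    DifferentiableAt ℂ (fun z : Cm n => z i - c i) z :=
  (differentiableAt_apply i z).sub_const _

theorem dz_co (c : Cm n) (i k : Fin n) (z : Cm n) :
    dz k (fun z : Cm n => z i - c i) z = if i = k then 1 else 0 := by
  have h : HasFDerivAt (fun z : Cm n => z i)
      (ContinuousLinearMap.proj (R := ℂ) (φ := fun _ : Fin n => ℂ) i) z :=
    (ContinuousLinearMap.proj (R := ℂ) (φ := fun _ : Fin n => ℂ) i).hasFDerivAt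
  rw [dz_of_holo (diff_co c i z), fderiv_sub_const, h.fderiv]
  simp [Pi.single_apply]

/-- the integrand of the homotopy operator -/
def hF (W : Fin n → Cm n → ℂ) (c : Cm n) (t : ℝ) (z : Cm n) : ℂ :=
  t * ∑ i, (z i - c i) * W i (c + t • (z - c))

section
variable {W : Fin n → Cm n → ℂ} (hW : ∀ i, ContDiff ℝ ∞ (W i)) (c : Cm n)
include hW

theorem hF_sm : ContDiff ℝ ∞ (Function.uncurry (hF W c)) := by
  refine (Complex.ofRealCLM.contDiff.comp contDiff_fst).mul (ContDiff.sum fun i _ => ?_)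
  refine ContDiff.mul ?_ ((hW i).comp (contDiff_const.add
    (contDiff_fst.smul (contDiff_snd.sub contDiff_const))))
  exact ((ContinuousLinearMap.proj (R := ℝ) (φ := fun _ : Fin n => ℂ) i).contDiff.comp
    contDiff_snd).sub contDiff_const

theorem diff_aff (t : ℝ) (i : Fin n) (z : Cm n) :
    DifferentiableAt ℝ (fun z => W i (c + t • (z - c))) z :=
  ((hW i).differentiable (by simp) _).comp z
    (((differentiableAt_id.sub_const c).const_smul t).const_add c)

theorem dz_hF (t : ℝ) (k : Fin n) (z : Cm n) : dz k (hF W c t) z =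
    t * (W k (c + t • (z - c)) + ∑ i, (z i - c i) * (t * dz k (W i) (c + t • (z - c)))) := by
  have h1 : ∀ i, DifferentiableAt ℝ (fun z : Cm n => z i - c i) z := fun i =>
    (diff_co c i z).restrictScalars ℝ
  unfold hF
  rw [dz_const_mul _ (DifferentiableAt.fun_sum fun i _ => (h1 i).fun_mul (diff_aff hW c t i z)),
    dz_sum _ fun i _ => (h1 i).fun_mul (diff_aff hW c t i z)]
  congr 1
  simp only [dz_mul (h1 _) (diff_aff hW c t _ z), dz_co, dz_aff (hW _), Finset.sum_add_distrib,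
    ite_mul, one_mul, zero_mul, Finset.sum_ite_eq', Finset.mem_univ, if_true]

theorem dzb_hF (t : ℝ) (k : Fin n) (z : Cm n) : dzb k (hF W c t) z =
    t * ∑ i, (z i - c i) * (t * dzb k (W i) (c + t • (z - c))) := by
  have h1 : ∀ i, DifferentiableAt ℝ (fun z : Cm n => z i - c i) z := fun i =>
    (diff_co c i z).restrictScalars ℝ
  unfold hF
  rw [dzb_const_mul _ (DifferentiableAt.fun_sum fun i _ => (h1 i).fun_mul (diff_aff hW c t i z)),
    dzb_sum _ fun i _ => (h1 i).fun_mul (diff_aff hW c t i z)]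
  congr 1
  simp only [dzb_mul (h1 _) (diff_aff hW c t _ z), dzb_of_holo (diff_co c _ z), dzb_aff (hW _),
    zero_mul, zero_add]

end

theorem aff_mem {c z : Cm n} {r t : ℝ} (hz : z ∈ ball c r) (ht : t ∈ Icc (0 : ℝ) 1) :
    c + t • (z - c) ∈ ball c r :=
  (convex_ball c r).add_smul_sub_mem (mem_ball_self (pos_of_mem_ball hz)) hz ht

theorem ftc {W : Cm n → ℂ} (hW : ContDiff ℝ ∞ W) (c z : Cm n) :
    ∫ t, (2 * t * W (c + t • (z - c)) + t ^ 2 * fderiv ℝ W (c + t • (z - c)) (z - c)) ∂ν₁ =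
      W z := by
  have hc : Continuous fun t : ℝ => c + t • (z - c) := by fun_prop
  have h1 : ∀ t : ℝ, HasDerivAt (fun t : ℝ => (t : ℂ) ^ 2 * W (c + t • (z - c)))
      (2 * t * W (c + t • (z - c)) + t ^ 2 * fderiv ℝ W (c + t • (z - c)) (z - c)) t := by
    intro t
    have h2 : HasDerivAt (fun t : ℝ => c + t • (z - c)) (z - c) t := by
      simpa using ((hasDerivAt_id t).smul_const (z - c)).const_add c
    have h3 := (hW.differentiable (by simp) _).hasFDerivAt.comp_hasDerivAt t h2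
    have h4 : HasDerivAt (fun t : ℝ => (t : ℂ) ^ 2) (2 * t) t := by
      have h6 : HasDerivAt (fun t : ℝ => (t : ℂ)) 1 t := by
        simpa using (hasDerivAt_id t).ofReal_comp
      simpa using h6.fun_pow 2
    exact h4.mul h3
  have h5 : Continuous fun t : ℝ => 2 * (t : ℂ) * W (c + t • (z - c)) +
      (t : ℂ) ^ 2 * fderiv ℝ W (c + t • (z - c)) (z - c) :=
    ((continuous_const.mul Complex.continuous_ofReal).mul (hW.continuous.comp hc)).add
      ((Complex.continuous_ofReal.pow 2).mul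
        (((hW.continuous_fderiv (by simp)).comp hc).clm_apply continuous_const))
  rw [ν₁, integral_Icc_eq_integral_Ioc, ← intervalIntegral.integral_of_le zero_le_one,
    intervalIntegral.integral_eq_sub_of_hasDerivAt (fun t _ => h1 t) (h5.intervalIntegrable _ _)]
  simp

/-- local potentials of closed real forms of type `(1,1)` -/
theorem exists_pot (c : Cm n) {r R : ℝ} (hr : 0 < r) (hrR : r < R)
    (w : Cm n → Matrix (Fin n) (Fin n) ℂ)
    (hsm : ∀ z ∈ ball c R, ∀ i j, ContDiffAt ℝ ∞ (fun z => w z i j) z)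
    (hh : ∀ z ∈ ball c R, (w z).IsHermitian)
    (hcl : ∀ z ∈ ball c R, ∀ i j k, dz k (fun z => w z i j) z = dz i (fun z => w z k j) z) :
    ∃ ρ : Cm n → ℝ, ContDiff ℝ ∞ ρ ∧ ∀ z ∈ ball c r, cHess ρ z = w z := by
  set r₁ := (r + R) / 2 with hr₁
  have h1 : r < r₁ := by rw [hr₁]; linarith
  have h2 : r₁ < R := by rw [hr₁]; linarith
  obtain ⟨φ, ρ', hρ', hφ, hφ1, hφ0, -⟩ := exists_cut c (hr.trans h1) h2
  set W : Fin n → Fin n → Cm n → ℂ := fun j i z => φ z * w z i j with hW
  have hWs : ∀ j i, ContDiff ℝ ∞ (W j i) := fun j i =>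
    contDiff_cut_mul hρ' (hr.trans hrR) hφ hφ0 fun z hz => hsm z hz i j
  have hWd : ∀ j i z, DifferentiableAt ℝ (W j i) z := fun j i z =>
    (hWs j i).differentiable (by simp) z
  have hsub : ball c r₁ ⊆ ball c R := ball_subset_ball h2.le
  have hWe : ∀ j i, ∀ z ∈ ball c r₁, W j i z = w z i j := fun j i z hz => by
    simp only [hW, hφ1 z hz, one_mul]
  have hWv : ∀ j i, ∀ z ∈ ball c r₁, W j i =ᶠ[𝓝 z] fun z => w z i j := fun j i z hz => by
    filter_upwards [isOpen_ball.mem_nhds hz] with y hy using hWe j i y hy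
  have hcj : ∀ j i, ∀ z ∈ ball c r₁, W j i =ᶠ[𝓝 z] fun z => cj (W i j z) := fun j i z hz => by
    filter_upwards [isOpen_ball.mem_nhds hz] with y hy
    rw [hWe j i y hy, hWe i j y hy]
    exact ((hh y (hsub hy)).apply i j).symm
  have hc1 : ∀ j i k, ∀ z ∈ ball c r₁, dz k (W j i) z = dz i (W j k) z := fun j i k z hz => by
    rw [dz_congr (hWv j i z hz), dz_congr (hWv j k z hz)]
    exact hcl z (hsub hz) i j k
  have hc2 : ∀ j i k, ∀ z ∈ ball c r₁, dzb k (W j i) z = dzb j (W k i) z := fun j i k z hz => by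
    rw [dzb_congr (hcj j i z hz), dzb_congr (hcj k i z hz), dzb_cj (hWd _ _ _), dzb_cj (hWd _ _ _),
      hc1 i j k z hz]
  set β : Fin n → Cm n → ℂ := fun j z => ∫ t, hF (W j) c t z ∂ν₁ with hβ
  have hβs : ∀ j, ContDiff ℝ ∞ (β j) := fun j =>
    contDiff_integral_param ν₁ isCompact_Icc ν₁_c (hF_sm (hWs j) c)
  have hae : ∀ᵐ t ∂ν₁, t ∈ Icc (0 : ℝ) 1 := ae_restrict_mem measurableSet_Icc
  obtain ⟨u, hu, hu'⟩ := dolbeault c hr h1 β (fun i z _ => (hβs i).contDiffAt) (by
    intro i j z hz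
    rw [hβ, dzb_int (hF_sm (hWs j) c), dzb_int (hF_sm (hWs i) c)]
    refine integral_congr_ae ?_
    filter_upwards [hae] with t ht
    rw [dzb_hF (hWs j), dzb_hF (hWs i)]
    simp only [hc2 j _ i _ (aff_mem hz ht)])
  have hud : ∀ z, DifferentiableAt ℝ u z := fun z => hu.differentiable (by simp) z
  have hu2 : ∀ z, ContDiffAt ℝ 2 u z := fun z => two_of_smooth hu.contDiffAt
  refine ⟨fun z => 2 * (u z).re, contDiff_const.mul (Complex.reCLM.contDiff.comp hu), ?_⟩
  intro z hz
  ext k j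
  have e1 : (fun y => ((2 * (u y).re : ℝ) : ℂ)) = fun y => u y + cj (u y) := by
    funext y
    rw [Complex.add_conj]
  have hcd : ∀ y, DifferentiableAt ℝ (fun y => cj (u y)) y := fun y =>
    Complex.conjCLE.differentiableAt.comp y (hud y)
  have e2 : dzb j (fun y => u y + cj (u y)) =ᶠ[𝓝 z] fun y => β j y + cj (dz j u y) := by
    filter_upwards [isOpen_ball.mem_nhds hz] with y hy
    rw [dzb_add (hud y) (hcd y), hu' j y hy, dzb_cj (hud y)]
  have e3 : dzb k u =ᶠ[𝓝 z] β k := by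
    filter_upwards [isOpen_ball.mem_nhds hz] with y hy using hu' k y hy
  have hz1 : z ∈ ball c r₁ := ball_subset_ball h1.le hz
  have hcd' : DifferentiableAt ℝ (fun y => cj (dz j u y)) z :=
    Complex.conjCLE.differentiableAt.comp z (differentiableAt_dz (hu2 z))
  rw [cHess_apply, e1, dz_congr e2, dz_add ((hβs j).differentiable (by simp) z) hcd',
    dz_cj (differentiableAt_dz (hu2 z)), ← dz_dzb_comm (hu2 z), dz_congr e3, hβ,
    dz_int (hF_sm (hWs j) c), dz_int (hF_sm (hWs k) c), ← hWe j k z hz1, ← ftc (hWs j k) c z]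
  have e4 := integral_conj (μ := ν₁) (f := fun t => dz j (hF (W k) c t) z)
  have e8 : Continuous fun t => (starRingEnd ℂ) (dz j (hF (W k) c t) z) :=
    Complex.continuous_conj.comp (dz_cont (hF_sm (hWs k) c) j z)
  rw [cj, ← e4, ← integral_add (int_ν₁ (dz_cont (hF_sm (hWs j) c) k z)) (int_ν₁ e8)]
  refine integral_congr_ae ?_
  filter_upwards [hae] with t ht
  have hp := aff_mem hz1 ht
  rw [dz_hF (hWs j), dz_hF (hWs k), fderiv_eq]
  have e5 : (starRingEnd ℂ) (W k j (c + t • (z - c))) = W j k (c + t • (z - c)) :=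
    ((hcj j k _ hp).self_of_nhds).symm
  have e6 : ∀ i, (starRingEnd ℂ) (dz j (W k i) (c + t • (z - c))) =
      dzb i (W j k) (c + t • (z - c)) := fun i => by
    rw [dzb_congr (hcj j k _ hp), dzb_cj (hWd _ _ _), hc1 k i j _ hp]
  simp only [map_mul, map_add, map_sum, Complex.conj_ofReal, e5, e6, hc1 j _ k _ hp,
    Finset.sum_add_distrib, Finset.mul_sum, mul_add, Pi.sub_apply, cj]
  have e7 : ∀ (a b : Fin n → ℂ), ∑ i, (t : ℂ) * (a i * (t * b i)) = ∑ i, (t : ℂ) ^ 2 * (b i * a i) :=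
    fun a b => Finset.sum_congr rfl fun i _ => by ring
  rw [e7, e7]
  ring

/-- pluriharmonic functions are real parts of holomorphic functions -/
theorem plh_re {f : Cm n → ℝ} {z : Cm n}
    (h : ∀ᶠ y in 𝓝 z, ContDiffAt ℝ ∞ f y ∧ cHess f y = 0) :
    ∃ g : Cm n → ℂ, AnalyticAt ℂ g z ∧ ∀ᶠ y in 𝓝 z, f y = (g y).re := by
  obtain ⟨r, hr, hb⟩ := Metric.eventually_nhds_iff_ball.1 h
  set f' : Cm n → ℂ := fun y => (f y : ℂ) with hf'
  have hs : ∀ y ∈ ball z r, ContDiffAt ℝ ∞ f' y := fun y hy => ofReal_contDiffAt (hb y hy).1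
  have hd : ∀ j, ∀ y ∈ ball z r, DifferentiableAt ℝ (dz j f') y := fun j y hy =>
    differentiableAt_dz (two_of_smooth (hs y hy))
  have h0 : ∀ i j, ∀ y ∈ ball z r, dzb i (dz j f') y = 0 := fun i j y hy => by
    rw [← dz_dzb_comm (two_of_smooth (hs y hy)), ← cHess_apply, (hb y hy).2]
    rfl
  set P : Fin n → Cm n →L[ℂ] ℂ := fun j => ContinuousLinearMap.proj j with hP
  set α : Cm n → Cm n →L[ℂ] ℂ := fun y => ∑ j, dz j f' y • P j with hα
  have hαd : ∀ y ∈ ball z r, HasFDerivAt α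
      (∑ j, (fderiv ℝ (dz j f') y).smulRight (P j)) y := fun y hy =>
    HasFDerivAt.fun_sum fun j _ => (hd j y hy).hasFDerivAt.smul_const (P j)
  obtain ⟨G, hG⟩ : ∃ G : Cm n → ℂ, ∀ a ∈ ball z r, HasFDerivAt G (α a) a :=
    (convex_ball z r).exists_forall_hasFDerivAt_of_fderiv_symmetric isOpen_ball (fun y hy => (hαd y hy).differentiableAt.differentiableWithinAt) (by
      intro a ha x y
      have e : ∀ x y : Cm n, fderiv ℝ α a x y = ∑ j, ∑ i, dz i (dz j f') a * x i * y j := by
        intro x y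
        rw [(hαd a ha).fderiv]
        simp only [sum_apply, ContinuousLinearMap.smulRight_apply,
          smul_apply, hP, ContinuousLinearMap.proj_apply, smul_eq_mul,
          fderiv_eq, h0 _ _ a ha, zero_mul, add_zero, Finset.sum_mul]
      rw [e, e, Finset.sum_comm]
      refine Finset.sum_congr rfl fun i _ => Finset.sum_congr rfl fun j _ => ?_
      rw [dz_dz_comm (two_of_smooth (hs a ha))]
      ring)
  have hGa : AnalyticAt ℂ G z := Vale.Agent.P268.analyticAt_of_differentiableOn isOpen_ball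
    (fun y hy => (hG y hy).differentiableAt.differentiableWithinAt) (mem_ball_self hr)
  have hGd : ∀ y ∈ ball z r, DifferentiableAt ℝ G y := fun y hy =>
    (hG y hy).differentiableAt.restrictScalars ℝ
  have hcd : ∀ y ∈ ball z r, DifferentiableAt ℝ (fun y => cj (G y)) y := fun y hy =>
    Complex.conjCLE.differentiableAt.comp y (hGd y hy)
  have hk : ∀ y ∈ ball z r, DifferentiableAt ℝ (fun y => f' y - (G y + cj (G y))) y := fun y hy =>
    (diff_of_smooth (hs y hy)).sub ((hGd y hy).add (hcd y hy))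
  have h1 : ∀ y ∈ ball z r, fderiv ℝ (fun y => f' y - (G y + cj (G y))) y = 0 := by
    intro y hy
    have a1 : ∀ i, dz i G y = dz i f' y := fun i => by
      rw [dz_of_holo (hG y hy).differentiableAt, (hG y hy).fderiv]
      simp [hα, hP, Pi.single_apply]
    have a2 : ∀ i, dzb i G y = 0 := fun i => dzb_of_holo (hG y hy).differentiableAt
    have a3 : ∀ i, dzb i f' y = cj (dz i f' y) := fun i => by
      rw [← dzb_cj (diff_of_smooth (hs y hy))]
      congr 1
      funext x
      simp [hf', cj]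
    ext v
    rw [fderiv_eq]
    simp only [dz_sub (diff_of_smooth (hs y hy)) ((hGd y hy).fun_add (hcd y hy)),
      dzb_sub (diff_of_smooth (hs y hy)) ((hGd y hy).fun_add (hcd y hy)),
      dz_add (hGd y hy) (hcd y hy), dzb_add (hGd y hy) (hcd y hy), dz_cj (hGd y hy),
      dzb_cj (hGd y hy), a1, a2, a3]
    simp [cj]
  refine ⟨fun y => 2 * G y + (f' z - (G z + cj (G z))), (analyticAt_const.mul hGa).add
    analyticAt_const, ?_⟩
  filter_upwards [ball_mem_nhds z hr] with y hy
  have h2 := isOpen_ball.is_const_of_fderiv_eq_zero (𝕜 := ℝ) (convex_ball z r).isPreconnected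
    (fun y hy => (hk y hy).differentiableWithinAt) h1 hy (mem_ball_self hr)
  rw [← h2]
  simp [hf', cj]
  ring

end Vale.Agent.P284Y.O
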