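import Vale.Agent.P284Y.Spec
import Vale.Agent.P284Y.O.Pot2
import Vale.Agent.P284Z.O.Top
import Vale.Agent.P301.H949.Loc

/-!
# P284Y, block O: the covering of a compact Kähler manifold and its charts
-/

open scoped Manifold ContDiff Topology ComplexOrder
open Filter Set Metric

noncomputable section

namespace Vale.Agent.P284Y.O

open Vale.Agent.P272.K Vale.Agent.P284.H894.G Vale.Agent.P284Z Vale.Agent.P284Z.O

variable {n : ℕ} {X : Type} [TopologicalSpace X] [ChartedSpace (Cm n) X]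
  {E Γ : Type} [TopologicalSpace E] [Group Γ] [MulAction Γ E] {p : E → X}
  {w : Chart n X → Cm n → Matrix (Fin n) (Fin n) ℂ}

/-- a polydisc chart of the covering, with a potential -/
structure Pk (w : Chart n X → Cm n → Matrix (Fin n) (Fin n) ℂ) (p : E → X) where
  h : OpenPartialHomeomorph E (Cm n)
  e : Chart n X
  c : Cm n
  r : ℝ
  r_pos : 0 < r
  tgt : h.target = ball c (4 * r)
  ov : ∀ y ∈ h.source, At e (p y) ∧ h y = e (p y)
  ρ : Cm n → ℝ
  sm : ContDiff ℝ ∞ ρ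
  pot : ∀ z ∈ ball c (4 * r), cHess ρ z = w e z

lemma Pk.key (P : Pk w p) {z : Cm n} (hz : z ∈ ball P.c (4 * P.r)) :
    At P.e (p (P.h.symm z)) ∧ P.e (p (P.h.symm z)) = z ∧ P.e.symm z = p (P.h.symm z) := by
  rw [← P.tgt] at hz
  obtain ⟨h1, h2⟩ := P.ov _ (P.h.map_target hz)
  rw [P.h.right_inv hz] at h2
  refine ⟨h1, h2.symm, ?_⟩
  conv_lhs => rw [h2]
  exact h1.left_inv

lemma exists_pk (hw : IsKahler w) (hp : IsLocalHomeomorph p) (y : E) :
    ∃ P : Pk w p, At P.e (p y) ∧ P.e (p y) = P.c := by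
  obtain ⟨f, hf, hfp⟩ := hp y
  set e : Chart n X := chartAt (Cm n) (p y) with he
  have hat : At e (p y) := ⟨chart_mem_atlas _ _, mem_chart_source _ _⟩
  obtain ⟨ρ, h1, h2⟩ := O2.pot_loc (W := w e) (c := e (p y)) (hat.nhds_target.mono fun z hz => by
    have h3 := At.of_target hat.1 hz
    have h4 := hw.smooth e _ h3
    have h5 := hw.posDef e _ h3
    have h6 := hw.closed e _ h3
    rw [e.right_inv hz] at h4 h5 h6
    exact ⟨h4, h5.isHermitian, h6⟩)
  set h := f.trans e with hh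
  have hsrc : ∀ u, u ∈ h.source ↔ u ∈ f.source ∧ p u ∈ e.source := fun u => by
    rw [hh, OpenPartialHomeomorph.trans_source, ← hfp]
    rfl
  have happ : ∀ u, h u = e (p u) := fun u => by rw [hfp]; rfl
  have hy : h.target ∈ 𝓝 (e (p y)) :=
    happ y ▸ h.open_target.mem_nhds (h.map_source ((hsrc y).2 ⟨hf, hat.2⟩))
  obtain ⟨R, hR, hRs⟩ := nhds_basis_ball.eventually_iff.1 (h2.and hy)
  have e4 : 4 * (R / 4) = R := by ring
  refine ⟨⟨(h.symm.restrOpen (ball (e (p y)) R) isOpen_ball).symm, e, e (p y), R / 4,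
    by positivity, ?_, fun u hu => ⟨⟨hat.1, ((hsrc u).1 hu.1).2⟩, happ u⟩, ρ, h1,
    fun z hz => (hRs (e4 ▸ hz)).1⟩, hat, rfl⟩
  show h.target ∩ ball (e (p y)) R = _
  rw [e4]
  exact inter_eq_right.2 fun z hz => (hRs hz).2

lemma exists_pks [CompactSpace X] (hw : IsKahler w) (hp : IsLocalHomeomorph p)
    (hs : Function.Surjective p) :
    ∃ (I : Type) (_ : Fintype I) (P : I → Pk w p),
      ∀ x : X, ∃ a, ∃ z ∈ ball (P a).c (P a).r, x = p ((P a).h.symm z) := by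
  have h1 : ∀ x : X, ∃ P : Pk w p, At P.e x ∧ P.e x = P.c := fun x => by
    obtain ⟨y, rfl⟩ := hs x
    exact exists_pk hw hp y
  choose P hP hPc using h1
  have h2 : ∀ x : X, (P x).e.source ∩ (P x).e ⁻¹' ball (P x).c (P x).r ∈ 𝓝 x := fun x => by
    refine ((P x).e.isOpen_inter_preimage isOpen_ball).mem_nhds ⟨(hP x).2, ?_⟩
    rw [mem_preimage, hPc]
    exact mem_ball_self (P x).r_pos
  obtain ⟨t, ht⟩ := CompactSpace.elim_nhds_subcover _ h2
  refine ⟨t, inferInstance, fun a => P a, fun x => ?_⟩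
  obtain ⟨a, ha, h4, h5⟩ := mem_iUnion₂.1 (ht.ge (mem_univ x))
  refine ⟨⟨a, ha⟩, (P a).e x, h5, ?_⟩
  show x = p ((P a).h.symm ((P a).e x))
  rw [← ((P a).key (ball_subset_ball (by linarith [(P a).r_pos]) h5)).2.2, (P a).e.left_inv h4]

lemma ov_at (hp : IsGalois Γ p) (P Q : Pk w p) (γ : Γ) {z : Cm n}
    (hb : γ • P.h.symm z ∈ Q.h.source) :
    At Q.e (p (P.h.symm z)) ∧ Q.h (γ • P.h.symm z) = Q.e (p (P.h.symm z)) := by
  have h := Q.ov _ hb
  rwa [p_smul hp] at h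

lemma ov_ev (hp : IsGalois Γ p) (P Q : Pk w p) (γ : Γ) {z : Cm n} (hz : z ∈ ball P.c (4 * P.r))
    (hb : γ • P.h.symm z ∈ Q.h.source) :
    ∀ᶠ v in 𝓝 z, v ∈ ball P.c (4 * P.r) ∧ γ • P.h.symm v ∈ Q.h.source := by
  have h1 : ContinuousAt (fun v => γ • P.h.symm v) z :=
    (hp.cont γ).continuousAt.comp (P.h.continuousAt_symm (by rwa [P.tgt]))
  exact (isOpen_ball.eventually_mem hz).and (h1.eventually (Q.h.open_source.mem_nhds hb))

lemma ov_eq (hp : IsGalois Γ p) (P Q : Pk w p) (γ : Γ) {z : Cm n} (hz : z ∈ ball P.c (4 * P.r))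
    (hb : γ • P.h.symm z ∈ Q.h.source) :
    (fun v => Q.h (γ • P.h.symm v)) =ᶠ[𝓝 z] fun v => Q.e (P.e.symm v) := by
  filter_upwards [ov_ev hp P Q γ hz hb] with v hv
  rw [(ov_at hp P Q γ hv.2).2, (P.key hv.1).2.2]

variable [IsManifold 𝓘(ℂ, Cm n) ω X]

lemma ov_hol (hp : IsGalois Γ p) (P Q : Pk w p) (γ : Γ) {z : Cm n} (hz : z ∈ ball P.c (4 * P.r))
    (hb : γ • P.h.symm z ∈ Q.h.source) : AnalyticAt ℂ (fun v => Q.h (γ • P.h.symm v)) z := by
  have h1 := (transition (P.key hz).1 (ov_at hp P Q γ hb).1).analyticAt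
  rw [(P.key hz).2.1] at h1
  exact h1.congr (ov_eq hp P Q γ hz hb).symm

lemma ov_zero (hw : IsKahler w) (hp : IsGalois Γ p) (P Q : Pk w p) (γ : Γ) {z : Cm n}
    (hz : z ∈ ball P.c (4 * P.r)) (hb : γ • P.h.symm z ∈ Q.h.source) :
    ContDiffAt ℝ 2 (fun v => P.ρ v - Q.ρ (Q.h (γ • P.h.symm v))) z ∧
      cHess (fun v => P.ρ v - Q.ρ (Q.h (γ • P.h.symm v))) z = 0 := by
  have h1 := ov_hol hp P Q γ hz hb
  have s : ∀ (P : Pk w p) v, ContDiffAt ℝ 2 P.ρ v := fun P v => P.sm.contDiffAt.of_le (by norm_cast)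
  have h2 : ContDiffAt ℝ 2 (fun v => Q.ρ (Q.h (γ • P.h.symm v))) z :=
    (s Q _).comp z (h1.contDiffAt.restrict_scalars ℝ)
  refine ⟨(s P z).sub h2, ?_⟩
  obtain ⟨k1, k2, -⟩ := P.key hz
  obtain ⟨k3, k4⟩ := ov_at hp P Q γ hb
  have h3 := hw.change _ _ _ k1 k3
  have h4 : jmat (fun v => Q.h (γ • P.h.symm v)) z = jmat (fun v => Q.e (P.e.symm v)) z := by
    ext i j
    exact C2.dz_congr j ((ov_eq hp P Q γ hz hb).fun_comp fun v => v i)
  rw [jacM_eq, k2, ← k4] at h3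
  rw [C2.cHess_sub (s P z) h2, cHess_comp (s Q _) h1.contDiffAt, P.pot z hz,
    Q.pot _ (Q.tgt ▸ Q.h.map_source hb), h3, h4, sub_self]

variable [T2Space X] {I : Type} [Fintype I] (P : I → Pk w p)

/-- the charts of the covering -/
def mkCov (hw : IsKahler w) (hp : IsGalois Γ p)
    (hcov : ∀ x : X, ∃ a, ∃ z ∈ ball (P a).c (P a).r, x = p ((P a).h.symm z)) : Cov n Γ E where
  I := I
  fin := inferInstance
  e a := (P a).h
  c a := (P a).c
  r a := (P a).r
  r_pos a := (P a).r_pos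
  tgt a := (P a).tgt
  cont := hp.cont
  free := hp.free
  disj γ a y hy hy' := hp.free γ y ((P a).h.injOn hy' hy
    (by rw [((P a).ov _ hy).2, ((P a).ov _ hy').2, p_smul hp]))
  cover y := by
    obtain ⟨a, z, hz, h⟩ := hcov (p y)
    obtain ⟨γ, hγ⟩ := (hp.orb _ _).1 h.symm
    exact ⟨γ, a, z, hz, hγ.symm⟩
  hol γ a b z hz hb := ov_hol hp (P a) (P b) γ hz hb
  proper := proper_of_gal hp
  ρ a := (P a).ρ
  ρ_sm a z _ := (P a).sm.contDiffAt
  ρ_pos a z hz := by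
    have h := hw.posDef _ _ ((P a).key hz).1
    rwa [((P a).key hz).2.1, ← (P a).pot z hz] at h
  ρ_ch γ a b z hz hb := by
    obtain ⟨R, hR, h⟩ := nhds_basis_ball.eventually_iff.1 (ov_ev hp (P a) (P b) γ hz hb)
    obtain ⟨F, h1, h2⟩ := P301.H949.exists_re isOpen_ball (convex_ball z R)
      (fun v hv => (ov_zero hw hp (P a) (P b) γ (h hv).1 (h hv).2).1)
      fun v hv => (ov_zero hw hp (P a) (P b) γ (h hv).1 (h hv).2).2
    refine ⟨F, P268.analyticAt_of_differentiableOn isOpen_ball h1 (mem_ball_self hR), ?_⟩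
    filter_upwards [ball_mem_nhds z hR] with v hv
    rw [h2 v hv, add_sub_cancel]

/-- the dimension is positive -/
theorem pos_of_cov [ConnectedSpace E] [Infinite Γ] (C : Cov n Γ E) : 1 ≤ n := by
  refine Nat.pos_of_ne_zero ?_
  rintro rfl
  have : DiscreteTopology E := discreteTopology_iff_isOpen_singleton.2 fun y => by
    obtain ⟨γ, a, z, hz, rfl⟩ := C.cover y
    have h1 : (C.e a).symm z ∈ (C.e a).source := (C.e a).map_target
      (C.tgt a ▸ ball_subset_ball (by linarith [C.r_pos a]) hz)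
    convert (C.e a).open_source.preimage (C.cont γ⁻¹)
    ext u
    rw [mem_singleton_iff, mem_preimage, ← inv_smul_eq_iff]
    exact ⟨fun h => h ▸ h1, fun h => (C.e a).injOn h h1 (Subsingleton.elim _ _)⟩
  have : Subsingleton E := PreconnectedSpace.trivial_of_discrete
  obtain ⟨y⟩ : Nonempty E := inferInstance
  obtain ⟨γ, h⟩ := exists_ne (1 : Γ)
  exact h (C.free γ y (Subsingleton.elim _ _))

end Vale.Agent.P284Y.O

namespace Vale.Agent.P284Y

open O P284Z.O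

/-- **O'** -/
theorem stO' : StO' := by
  intro n X _ _ _ _ _ _ w hw x Γ _ _ f hf
  obtain ⟨E, tE, cE, aE, p, hp⟩ := exists_gal (n := n) X x Γ f hf
  obtain ⟨I, fI, P, hcov⟩ := exists_pks hw hp.cov.isLocalHomeomorph hp.surj
  exact ⟨fg_of_cov (mkCov P hw hp hcov), pos_of_cov (mkCov P hw hp hcov), E, tE, t2_of_gal hp, cE,
    aE, p, mkCov P hw hp hcov, hp, fun a => ⟨(P a).e, (P a).ov⟩⟩

end Vale.Agent.P284Y
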